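import Vale.Agent.P181.TR.H88.TR1
import Vale.Agent.P181.TRT.Defs

set_option autoImplicit false

/-!
# P181, TRT, (TR1)
-/

open MvPolynomial

namespace Vale.Agent.P181.TRT.H88

/-- **(TR1)** -/
theorem traceT : TraceT := by
  classical
  intro m σ _ k k' c mu dl hk hS
  obtain ⟨I, _, u, v, hu, hz, hn⟩ := hS
  rw [Nat.card_eq_fintype_card]
  exact TR.H88.tr1 k' c k (funext hk) mu dl (mu + dl) rfl u v hu (fun e he h => hz e he h) hn

end Vale.Agent.P181.TRT.H88
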